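import Mathlib

/-! Fourier-side objects for the periodic defocusing nonlinear Schrödinger equation. -/

open Set

namespace Vale.Agent.P139

/-- Frequencies in dimension `d`. -/
abbrev Freq (d : ℕ) := Fin d → ℤ

/-- `|n|²`. -/
def sqLen {d : ℕ} (n : Freq d) : ℝ := ∑ i, (n i : ℝ) ^ 2

/-- The Japanese bracket `(1+|n|²)^{1/2}`. -/
noncomputable def jap {d : ℕ} (n : Freq d) : ℝ := Real.sqrt (1 + sqLen n)

/-- Convolution of coefficient sequences, i.e. the Fourier coefficients of a product. -/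
noncomputable def conv {d : ℕ} (a b : Freq d → ℂ) (n : Freq d) : ℂ :=
  ∑' m, a m * b (n - m)

/-- Fourier coefficients of the complex conjugate. -/
def conjRev {d : ℕ} (a : Freq d → ℂ) (n : Freq d) : ℂ := starRingEnd ℂ (a (-n))

/-- Fourier coefficients of `|u|^(2m) u`. -/
noncomputable def power {d : ℕ} (m : ℕ) (a : Freq d → ℂ) : Freq d → ℂ :=
  (conv (conv a (conjRev a)))^[m] a

/-- There is a solution of `i u_t + Δ u = |u|^(2m) u` up to and including time `T` with Fourier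
coefficients `a` at time zero, continuous in the weighted norm `∑ jap n ^ k ‖u n‖`. -/
def SolvesUpTo {d : ℕ} (m k : ℕ) (T : ℝ) (a : Freq d → ℂ) : Prop :=
  ∃ u : ℝ → Freq d → ℂ, u 0 = a ∧
    (∀ t ∈ Icc 0 T, Summable fun n => jap n ^ k * ‖u t n‖) ∧
    (∀ t ∈ Icc 0 T, ∀ ε > 0, ∃ δ > 0, ∀ s ∈ Icc 0 T, |s - t| < δ →
      (Summable fun n => jap n ^ k * ‖u s n - u t n‖) ∧
        ∑' n, jap n ^ k * ‖u s n - u t n‖ < ε) ∧
    ∀ t ∈ Icc 0 T, ∀ n, HasDerivWithinAt (fun s => u s n)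
      (-Complex.I * ((sqLen n : ℂ) * u t n + power m (u t) n)) (Icc 0 T) t

end Vale.Agent.P139
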