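import Mathlib
import Vale.Agent.P139.Basic

/-! The weighted Wiener algebra, modelled on `ℓ¹`. -/

open Set

namespace Vale.Agent.P139

variable {d : ℕ}

lemma sqLen_nonneg (n : Freq d) : 0 ≤ sqLen n := by unfold sqLen; positivity

lemma one_le_jap (n : Freq d) : 1 ≤ jap n := by
  unfold jap
  rw [Real.one_le_sqrt]
  linarith [sqLen_nonneg n]

lemma jap_zero : jap (0 : Freq d) = 1 := by simp [jap, sqLen]

lemma jap_neg (n : Freq d) : jap (-n) = jap n := by simp [jap, sqLen]

lemma jap_add_le (a b : Freq d) : jap (a + b) ≤ Real.sqrt 2 * (jap a * jap b) := by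
  unfold jap
  rw [← Real.sqrt_mul (by linarith [sqLen_nonneg a]), ← Real.sqrt_mul (by norm_num)]
  apply Real.sqrt_le_sqrt
  have h : sqLen (a + b) ≤ 2 * sqLen a + 2 * sqLen b := by
    unfold sqLen
    rw [Finset.mul_sum, Finset.mul_sum, ← Finset.sum_add_distrib]
    refine Finset.sum_le_sum fun i _ => ?_
    simp only [Pi.add_apply, Int.cast_add]
    nlinarith [sq_nonneg ((a i : ℝ) - b i)]
  nlinarith [sqLen_nonneg a, sqLen_nonneg b, mul_nonneg (sqLen_nonneg a) (sqLen_nonneg b)]

/-- The weight `jap n ^ k`. -/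
noncomputable def wt (k : ℕ) (n : Freq d) : ℝ := jap n ^ k

lemma one_le_wt (k : ℕ) (n : Freq d) : 1 ≤ wt k n := one_le_pow₀ (one_le_jap n)

lemma wt_pos (k : ℕ) (n : Freq d) : 0 < wt k n := lt_of_lt_of_le one_pos (one_le_wt k n)

lemma wt_ne (k : ℕ) (n : Freq d) : (wt k n : ℂ) ≠ 0 :=
  Complex.ofReal_ne_zero.2 (wt_pos k n).ne'

/-- `ℓ¹(ℤ^d)`; an element stands for the sequence obtained by dividing by the weight. -/
noncomputable abbrev Wien (d : ℕ) := lp (fun _ : Freq d => ℂ) 1

/-- The coefficient sequence of an element. -/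
noncomputable def coef (k : ℕ) (f : Wien d) (n : Freq d) : ℂ := f n / (wt k n : ℂ)

lemma summable_norm (f : Wien d) : Summable fun n => ‖f n‖ := by
  have h := (lp.memℓp f).summable (by norm_num)
  simpa using h

lemma norm_eq (f : Wien d) : ‖f‖ = ∑' n, ‖f n‖ := by
  have h := lp.norm_eq_tsum_rpow (p := 1) (by norm_num) f
  simpa using h

lemma wt_mul_norm_coef (k : ℕ) (f : Wien d) (n : Freq d) :
    wt k n * ‖coef k f n‖ = ‖f n‖ := by
  rw [coef, norm_div, Complex.norm_real, Real.norm_of_nonneg (wt_pos k n).le]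
  field_simp [(wt_pos k n).ne']

lemma norm_coef_le (k : ℕ) (f : Wien d) (n : Freq d) : ‖coef k f n‖ ≤ ‖f n‖ := by
  rw [← wt_mul_norm_coef k f n]
  exact le_mul_of_one_le_left (norm_nonneg _) (one_le_wt k n)

lemma coef_sub (k : ℕ) (f g : Wien d) (n : Freq d) :
    coef k (f - g) n = coef k f n - coef k g n := by
  simp [coef, sub_div]

/-- The element with a given coefficient sequence. -/
noncomputable def ofCoef (k : ℕ) (a : Freq d → ℂ) (h : Summable fun n => wt k n * ‖a n‖) :
    Wien d :=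
  ⟨fun n => (wt k n : ℂ) * a n, memℓp_gen (by
    simpa [Complex.norm_real, abs_of_pos (wt_pos k _)] using h)⟩

lemma coef_ofCoef (k : ℕ) (a : Freq d → ℂ) (h : Summable fun n => wt k n * ‖a n‖) :
    coef k (ofCoef k a h) = a := by
  funext n
  show ((wt k n : ℂ) * a n) / _ = a n
  field_simp [wt_ne k n]

lemma wt_conv_bound (k : ℕ) (f g : Wien d) (m n : Freq d) :
    wt k (m + n) * ‖coef k f m * coef k g n‖ ≤ Real.sqrt 2 ^ k * (‖f m‖ * ‖g n‖) := by
  rw [norm_mul, ← wt_mul_norm_coef k f m, ← wt_mul_norm_coef k g n]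
  have h : wt k (m + n) ≤ Real.sqrt 2 ^ k * (wt k m * wt k n) := by
    unfold wt
    rw [← mul_pow, ← mul_pow]
    exact pow_le_pow_left₀ (le_trans zero_le_one (one_le_jap _)) (jap_add_le m n) k
  calc wt k (m + n) * (‖coef k f m‖ * ‖coef k g n‖)
      ≤ Real.sqrt 2 ^ k * (wt k m * wt k n) * (‖coef k f m‖ * ‖coef k g n‖) :=
        mul_le_mul_of_nonneg_right h (by positivity)
    _ = _ := by ring

/-- The change of variables `(n,m) ↦ (m, n - m)`. -/
def shear (d : ℕ) : Freq d × Freq d ≃ Freq d × Freq d where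
  toFun p := (p.2, p.1 - p.2)
  invFun p := (p.1 + p.2, p.1)
  left_inv p := by simp
  right_inv p := by simp

lemma summable_shear (f g : Wien d) :
    Summable fun p : Freq d × Freq d => ‖f p.2‖ * ‖g (p.1 - p.2)‖ := by
  have h := Summable.mul_of_nonneg (summable_norm f) (summable_norm g)
    (fun n => norm_nonneg _) (fun n => norm_nonneg _)
  exact (shear d).summable_iff.2 h

lemma summable_mul_coef (k : ℕ) (f g : Wien d) (n : Freq d) :
    Summable fun m => coef k f m * coef k g (n - m) := by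
  refine Summable.of_norm_bounded (g := fun m => ‖f m‖ * ‖g (n - m)‖)
    ((summable_shear f g).prod_factor n) fun m => ?_
  rw [norm_mul]
  exact mul_le_mul (norm_coef_le k f m) (norm_coef_le k g _) (norm_nonneg _) (norm_nonneg _)

lemma conv_bound (k : ℕ) (f g : Wien d) :
    (Summable fun n => wt k n * ‖conv (coef k f) (coef k g) n‖) ∧
      ∑' n, wt k n * ‖conv (coef k f) (coef k g) n‖ ≤ Real.sqrt 2 ^ k * (‖f‖ * ‖g‖) := by
  have hs := summable_shear f g
  have hpt : ∀ n, wt k n * ‖conv (coef k f) (coef k g) n‖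
      ≤ Real.sqrt 2 ^ k * ∑' m, ‖f m‖ * ‖g (n - m)‖ := by
    intro n
    have hf := (summable_mul_coef k f g n).norm
    calc wt k n * ‖conv (coef k f) (coef k g) n‖
        ≤ wt k n * ∑' m, ‖coef k f m * coef k g (n - m)‖ :=
          mul_le_mul_of_nonneg_left (norm_tsum_le_tsum_norm hf) (wt_pos k n).le
      _ = ∑' m, wt k (m + (n - m)) * ‖coef k f m * coef k g (n - m)‖ := by
          rw [← tsum_mul_left]; simp
      _ ≤ ∑' m, Real.sqrt 2 ^ k * (‖f m‖ * ‖g (n - m)‖) :=
          Summable.tsum_le_tsum (fun m => wt_conv_bound k f g m (n - m))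
            (by simpa using hf.mul_left (wt k n)) ((hs.prod_factor n).mul_left _)
      _ = _ := tsum_mul_left
  have hsum : Summable fun n => ∑' m, ‖f m‖ * ‖g (n - m)‖ := hs.prod
  have h1 : Summable fun n => wt k n * ‖conv (coef k f) (coef k g) n‖ :=
    Summable.of_nonneg_of_le (fun n => mul_nonneg (wt_pos k n).le (norm_nonneg _)) hpt
      (hsum.mul_left _)
  refine ⟨h1, (Summable.tsum_le_tsum hpt h1 (hsum.mul_left _)).trans ?_⟩
  rw [tsum_mul_left]
  refine le_of_eq (congrArg _ ?_)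
  rw [← hs.tsum_prod, norm_eq, norm_eq,
    (summable_norm f).tsum_mul_tsum (summable_norm g)
      (Summable.mul_of_nonneg (summable_norm f) (summable_norm g)
        (fun n => norm_nonneg _) (fun n => norm_nonneg _))]
  exact (shear d).tsum_eq (fun p => ‖f p.1‖ * ‖g p.2‖)

/-- The product of the algebra. -/
noncomputable def mulW (k : ℕ) (f g : Wien d) : Wien d :=
  ofCoef k (conv (coef k f) (coef k g)) (conv_bound k f g).1

lemma coef_mulW (k : ℕ) (f g : Wien d) :
    coef k (mulW k f g) = conv (coef k f) (coef k g) := coef_ofCoef _ _ _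

lemma coef_injective (k : ℕ) {f g : Wien d} (h : coef k f = coef k g) : f = g := by
  apply lp.ext
  funext n
  have := congrFun h n
  simp only [coef] at this
  field_simp [wt_ne k n] at this
  exact this

lemma norm_mulW_le (k : ℕ) (f g : Wien d) :
    ‖mulW k f g‖ ≤ Real.sqrt 2 ^ k * (‖f‖ * ‖g‖) := by
  rw [norm_eq (mulW k f g)]
  refine le_trans (le_of_eq (tsum_congr fun n => ?_)) (conv_bound k f g).2
  rw [← wt_mul_norm_coef k (mulW k f g) n, coef_mulW]

lemma mulW_sub_sub (k : ℕ) (a b a' b' : Wien d) :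
    mulW k a b - mulW k a' b' = mulW k (a - a') b + mulW k a' (b - b') := by
  apply coef_injective k
  funext n
  simp only [coef, lp.coeFn_add, lp.coeFn_sub, Pi.add_apply, Pi.sub_apply, add_div, sub_div]
  show coef k (mulW k a b) n - coef k (mulW k a' b') n
    = coef k (mulW k (a - a') b) n + coef k (mulW k a' (b - b')) n
  simp only [coef_mulW, conv, coef_sub, sub_mul, mul_sub]
  rw [(summable_mul_coef k a b n).tsum_sub (summable_mul_coef k a' b n),
    (summable_mul_coef k a' b n).tsum_sub (summable_mul_coef k a' b' n)]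
  ring

/-- Complex conjugation. -/
noncomputable def starW (f : Wien d) : Wien d :=
  ⟨fun n => starRingEnd ℂ (f (-n)), memℓp_gen (by
    simpa [Function.comp_def] using (Equiv.neg (Freq d)).summable_iff.2 (summable_norm f))⟩

lemma norm_starW (f : Wien d) : ‖starW f‖ = ‖f‖ := by
  rw [norm_eq, norm_eq]
  show ∑' n, ‖starRingEnd ℂ (f (-n))‖ = _
  simp only [Complex.norm_conj]
  exact (Equiv.neg (Freq d)).tsum_eq (fun n => ‖f n‖)

lemma starW_sub (f g : Wien d) : starW f - starW g = starW (f - g) := by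
  apply lp.ext
  funext n
  show starRingEnd ℂ (f (-n)) - starRingEnd ℂ (g (-n)) = starRingEnd ℂ ((f - g : Wien d) (-n))
  simp

lemma coef_starW (k : ℕ) (f : Wien d) : coef k (starW f) = conjRev (coef k f) := by
  funext n
  show starRingEnd ℂ (f (-n)) / _ = starRingEnd ℂ (f (-n) / _)
  rw [map_div₀, Complex.conj_ofReal]
  simp [wt, jap_neg]

/-- The nonlinearity. -/
noncomputable def nonlin (k m : ℕ) (f : Wien d) : Wien d :=
  (mulW k (mulW k f (starW f)))^[m] f

lemma coef_nonlin (k m : ℕ) (f : Wien d) : coef k (nonlin k m f) = power m (coef k f) := by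
  unfold nonlin power
  induction m with
  | zero => rfl
  | succ m ih =>
    rw [Function.iterate_succ_apply', Function.iterate_succ_apply', coef_mulW, coef_mulW,
      coef_starW, ih]

/-- Bounded and Lipschitz on every ball. -/
def LipOnBalls (F : Wien d → Wien d) : Prop :=
  ∀ R : ℝ, 0 ≤ R → ∃ C : ℝ, 0 ≤ C ∧ ∀ x y : Wien d, ‖x‖ ≤ R → ‖y‖ ≤ R →
    ‖F x‖ ≤ C ∧ ‖F x - F y‖ ≤ C * ‖x - y‖

lemma lipOnBalls_id : LipOnBalls (fun f : Wien d => f) := by
  intro R hR
  refine ⟨R + 1, by linarith, fun x y hx _ => ⟨by linarith, ?_⟩⟩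
  nlinarith [norm_nonneg (x - y)]

lemma lipOnBalls_star : LipOnBalls (starW (d := d)) := by
  intro R hR
  refine ⟨R + 1, by linarith, fun x y hx _ => ?_⟩
  rw [starW_sub, norm_starW, norm_starW]
  exact ⟨by linarith, by nlinarith [norm_nonneg (x - y)]⟩

lemma LipOnBalls.mulW (k : ℕ) {F G : Wien d → Wien d} (hF : LipOnBalls F) (hG : LipOnBalls G) :
    LipOnBalls fun x => mulW k (F x) (G x) := by
  intro R hR
  obtain ⟨A, hA, hFA⟩ := hF R hR
  obtain ⟨B, hB, hGB⟩ := hG R hR
  have hs : 0 ≤ Real.sqrt 2 ^ k := by positivity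
  refine ⟨2 * Real.sqrt 2 ^ k * A * B + Real.sqrt 2 ^ k * A * B, by positivity,
    fun x y hx hy => ⟨?_, ?_⟩⟩
  · calc ‖P139.mulW k (F x) (G x)‖ ≤ Real.sqrt 2 ^ k * (‖F x‖ * ‖G x‖) := norm_mulW_le _ _ _
      _ ≤ Real.sqrt 2 ^ k * (A * B) := by
          gcongr
          exacts [(hFA x y hx hy).1, (hGB x y hx hy).1]
      _ ≤ _ := by nlinarith [mul_nonneg (mul_nonneg hs hA) hB]
  · rw [mulW_sub_sub]
    calc ‖P139.mulW k (F x - F y) (G x) + P139.mulW k (F y) (G x - G y)‖
        ≤ Real.sqrt 2 ^ k * (‖F x - F y‖ * ‖G x‖) + Real.sqrt 2 ^ k * (‖F y‖ * ‖G x - G y‖) :=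
          (norm_add_le _ _).trans (add_le_add (norm_mulW_le _ _ _) (norm_mulW_le _ _ _))
      _ ≤ Real.sqrt 2 ^ k * (A * ‖x - y‖ * B) + Real.sqrt 2 ^ k * (A * (B * ‖x - y‖)) := by
          gcongr
          exacts [(hFA x y hx hy).2, (hGB x y hx hy).1, (hFA y x hy hx).1, (hGB x y hx hy).2]
      _ ≤ _ := by nlinarith [mul_nonneg (mul_nonneg (mul_nonneg hs hA) hB) (norm_nonneg (x - y))]

lemma lipOnBalls_nonlin (k m : ℕ) : LipOnBalls (nonlin (d := d) k m) := by
  have h : nonlin (d := d) k m = fun f => (P139.mulW k (P139.mulW k f (starW f)))^[m] f := rfl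
  rw [h]
  induction m with
  | zero => exact lipOnBalls_id
  | succ m ih =>
    simp only [Function.iterate_succ_apply']
    exact (lipOnBalls_id.mulW k lipOnBalls_star).mulW k (ih rfl)

end Vale.Agent.P139
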