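import Mathlib
import Vale.Agent.P139.Algebra

/-! Solutions near the constant one exist up to any given time. -/

open Set

namespace Vale.Agent.P139

variable {d : ℕ}

/-- The free phase. -/
noncomputable def phase (t : ℝ) (n : Freq d) : ℂ :=
  Complex.exp (((-(sqLen n * t) : ℝ) : ℂ) * Complex.I)

lemma norm_phase (t : ℝ) (n : Freq d) : ‖phase t n‖ = 1 := Complex.norm_exp_ofReal_mul_I _

lemma phase_zero_time (n : Freq d) : phase 0 n = 1 := by simp [phase]

lemma phase_zero (t : ℝ) : phase t (0 : Freq d) = 1 := by simp [phase, sqLen]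

lemma phase_mul_neg (t : ℝ) (n : Freq d) : phase t n * phase (-t) n = 1 := by
  rw [phase, phase, ← Complex.exp_add, ← Complex.exp_zero]
  congr 1
  push_cast
  ring

lemma continuous_phase (n : Freq d) : Continuous fun t => phase t n := by
  unfold phase; fun_prop

lemma hasDerivAt_phase (t : ℝ) (n : Freq d) :
    HasDerivAt (fun s => phase s n) (-Complex.I * (sqLen n : ℂ) * phase t n) t := by
  have h := (((hasDerivAt_id t).const_mul (sqLen n)).neg.ofReal_comp.mul_const Complex.I).cexp
  refine h.congr_deriv ?_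
  simp [phase]
  ring

/-- The free evolution. -/
noncomputable def rot (t : ℝ) (f : Wien d) : Wien d :=
  ⟨fun n => phase t n * f n, memℓp_gen (by simpa [norm_phase] using summable_norm f)⟩

lemma rot_apply (t : ℝ) (f : Wien d) (n : Freq d) : rot t f n = phase t n * f n := rfl

lemma norm_rot (t : ℝ) (f : Wien d) : ‖rot t f‖ = ‖f‖ := by
  rw [norm_eq, norm_eq]
  simp [rot_apply, norm_phase]

lemma rot_sub (t : ℝ) (f g : Wien d) : rot t f - rot t g = rot t (f - g) := by
  apply lp.ext
  funext n
  show phase t n * f n - phase t n * g n = phase t n * ((f - g : Wien d) n)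
  simp [mul_sub]

lemma coef_rot (k : ℕ) (t : ℝ) (f : Wien d) (n : Freq d) :
    coef k (rot t f) n = phase t n * coef k f n := by
  simp [coef, rot_apply, mul_div_assoc]

lemma continuous_rot (f : Wien d) : Continuous fun t => rot t f := by
  rw [continuous_iff_continuousAt]
  intro t₀
  have hc : Continuous fun t => ∑' n, ‖(phase t n - phase t₀ n) * f n‖ := by
    refine continuous_tsum (u := fun n => 2 * ‖f n‖) (fun n => ?_)
      ((summable_norm f).mul_left 2) fun n t => ?_
    · exact ((continuous_phase n).sub continuous_const |>.mul continuous_const).norm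
    · rw [norm_norm, norm_mul]
      refine mul_le_mul_of_nonneg_right ((norm_sub_le _ _).trans ?_) (norm_nonneg _)
      rw [norm_phase, norm_phase]; norm_num
  rw [ContinuousAt, tendsto_iff_norm_sub_tendsto_zero]
  have he : ∀ t, ‖rot t f - rot t₀ f‖ = ∑' n, ‖(phase t n - phase t₀ n) * f n‖ := by
    intro t
    rw [norm_eq]
    simp [rot_apply, sub_mul]
  simp only [he]
  simpa using hc.tendsto t₀

lemma continuous_rot_uncurry : Continuous fun p : ℝ × Wien d => rot p.1 p.2 := by
  rw [continuous_iff_continuousAt]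
  rintro ⟨t₀, f₀⟩
  rw [ContinuousAt, tendsto_iff_norm_sub_tendsto_zero]
  have h1 : Filter.Tendsto (fun p : ℝ × Wien d => ‖p.2 - f₀‖ + ‖rot p.1 f₀ - rot t₀ f₀‖)
      (nhds (t₀, f₀)) (nhds 0) := by
    have hc : Continuous fun p : ℝ × Wien d => ‖p.2 - f₀‖ + ‖rot p.1 f₀ - rot t₀ f₀‖ :=
      (continuous_snd.sub continuous_const).norm.add
        (((continuous_rot f₀).comp continuous_fst).sub continuous_const).norm
    simpa using hc.tendsto (t₀, f₀)
  refine squeeze_zero (fun p => norm_nonneg _) (fun p => ?_) h1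
  calc ‖rot p.1 p.2 - rot t₀ f₀‖
      ≤ ‖rot p.1 p.2 - rot p.1 f₀‖ + ‖rot p.1 f₀ - rot t₀ f₀‖ := norm_sub_le_norm_sub_add_norm_sub _ _ _
    _ = _ := by rw [rot_sub, norm_rot]

/-- The vector field in the interaction picture. -/
noncomputable def field (k m : ℕ) (t : ℝ) (f : Wien d) : Wien d :=
  (-Complex.I) • rot (-t) (nonlin k m (rot t f))

lemma continuous_nonlin (k m : ℕ) : Continuous (nonlin (d := d) k m) := by
  rw [continuous_iff_continuousAt]
  intro x₀
  obtain ⟨C, hC, hCb⟩ := lipOnBalls_nonlin (d := d) k m (‖x₀‖ + 1) (by positivity)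
  rw [ContinuousAt, tendsto_iff_norm_sub_tendsto_zero]
  have h1 : Filter.Tendsto (fun x : Wien d => C * ‖x - x₀‖) (nhds x₀) (nhds 0) := by
    have hc : Continuous fun x : Wien d => C * ‖x - x₀‖ :=
      continuous_const.mul (continuous_id.sub continuous_const).norm
    simpa using hc.tendsto x₀
  refine squeeze_zero' (Filter.Eventually.of_forall fun _ => norm_nonneg _) ?_ h1
  filter_upwards [Metric.ball_mem_nhds x₀ one_pos] with x hx
  refine (hCb x x₀ ?_ (by linarith)).2
  rw [Metric.mem_ball, dist_eq_norm] at hx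
  linarith [norm_le_norm_add_norm_sub' x x₀]

lemma continuous_field (k m : ℕ) : Continuous fun p : ℝ × Wien d => field k m p.1 p.2 := by
  have h1 : Continuous fun p : ℝ × Wien d => (-p.1, nonlin k m (rot p.1 p.2)) :=
    continuous_fst.neg.prodMk ((continuous_nonlin k m).comp continuous_rot_uncurry)
  exact (continuous_rot_uncurry.comp h1).const_smul (-Complex.I)

lemma field_bound (k m : ℕ) {R : ℝ} (hR : 0 ≤ R) :
    ∃ C : ℝ, 0 ≤ C ∧ ∀ t : ℝ, ∀ x y : Wien d, ‖x‖ ≤ R → ‖y‖ ≤ R →
      ‖field k m t x‖ ≤ C ∧ ‖field k m t x - field k m t y‖ ≤ C * ‖x - y‖ := by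
  obtain ⟨C, hC, hCb⟩ := lipOnBalls_nonlin (d := d) k m R hR
  refine ⟨C, hC, fun t x y hx hy => ?_⟩
  have h := hCb (rot t x) (rot t y) (by rwa [norm_rot]) (by rwa [norm_rot])
  constructor
  · rw [field, norm_smul, norm_rot]; simpa using h.1
  · rw [field, field, ← smul_sub, norm_smul, rot_sub, norm_rot]
    simpa [rot_sub, norm_rot] using h.2

/-- Radial retraction onto the ball of radius `M`. -/
noncomputable def clip (M : ℝ) (x : Wien d) : Wien d := (M / max M ‖x‖) • x

lemma norm_clip_le {M : ℝ} (hM : 0 < M) (x : Wien d) : ‖clip M x‖ ≤ M := by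
  have hm : 0 < max M ‖x‖ := lt_max_of_lt_left hM
  rw [clip, norm_smul, Real.norm_of_nonneg (by positivity), div_mul_eq_mul_div, div_le_iff₀ hm]
  exact mul_le_mul_of_nonneg_left (le_max_right _ _) hM.le

lemma clip_eq {M : ℝ} (hM : 0 < M) {x : Wien d} (hx : ‖x‖ ≤ M) : clip M x = x := by
  rw [clip, max_eq_left hx, div_self hM.ne', one_smul]

lemma norm_clip_sub {M : ℝ} (hM : 0 < M) (x y : Wien d) :
    ‖clip M x - clip M y‖ ≤ 2 * ‖x - y‖ := by
  set a := max M ‖x‖
  set b := max M ‖y‖
  have ha : M ≤ a := le_max_left _ _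
  have hb : M ≤ b := le_max_left _ _
  have hab : |b - a| ≤ ‖x - y‖ := by
    refine (abs_max_sub_max_le_max M ‖y‖ M ‖x‖).trans (max_le (by simp) ?_)
    rw [norm_sub_rev]
    exact abs_norm_sub_norm_le _ _
  have e : clip M x - clip M y = (M / a) • (x - y) + (M / a - M / b) • y := by
    rw [clip, clip, smul_sub, sub_smul]; abel
  have ha0 : 0 < a := hM.trans_le ha
  have hb0 : 0 < b := hM.trans_le hb
  rw [e]
  refine (norm_add_le _ _).trans ?_
  rw [norm_smul, norm_smul, Real.norm_eq_abs, Real.norm_eq_abs]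
  have h1 : |M / a| * ‖x - y‖ ≤ ‖x - y‖ := by
    refine mul_le_of_le_one_left (norm_nonneg _) ?_
    rw [abs_of_nonneg (by positivity), div_le_one ha0]; exact ha
  have h2 : |M / a - M / b| * ‖y‖ ≤ ‖x - y‖ := by
    rw [show M / a - M / b = (M / a) * ((b - a) / b) by field_simp, abs_mul,
      abs_of_nonneg (show 0 ≤ M / a by positivity), abs_div, abs_of_pos hb0]
    calc M / a * (|b - a| / b) * ‖y‖ ≤ 1 * (|b - a| / b) * ‖y‖ := by
          gcongr; exact (div_le_one ha0).2 ha
      _ = |b - a| * (‖y‖ / b) := by ring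
      _ ≤ |b - a| * 1 := by gcongr; exact (div_le_one hb0).2 (le_max_right _ _)
      _ ≤ _ := by simpa using hab
  linarith

/-- The coefficient sequence supported at the zero frequency. -/
noncomputable def atZero (d : ℕ) (c : ℂ) : Wien d := lp.single 1 (0 : Freq d) c

lemma atZero_apply (c : ℂ) (n : Freq d) : atZero d c n = if n = 0 then c else 0 := by
  simp [atZero, lp.single_apply, Pi.single_apply]

lemma norm_atZero (c : ℂ) : ‖atZero d c‖ = ‖c‖ := by
  simp [atZero]

lemma coef_atZero (k : ℕ) (c : ℂ) (n : Freq d) :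
    coef k (atZero d c) n = if n = 0 then c else 0 := by
  rw [coef, atZero_apply]
  split
  · next h => simp [h, wt, jap_zero]
  · simp

lemma rot_atZero (t : ℝ) (c : ℂ) : rot t (atZero d c) = atZero d c := by
  apply lp.ext
  funext n
  rw [rot_apply, atZero_apply]
  split
  · next h => simp [h, phase_zero]
  · simp

lemma mulW_atZero (k : ℕ) (a b : ℂ) : mulW k (atZero d a) (atZero d b) = atZero d (a * b) := by
  apply coef_injective k
  funext n
  rw [coef_mulW, conv, tsum_eq_single 0 (fun m hm => by simp [coef_atZero, hm])]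
  simp [coef_atZero]

lemma starW_atZero (a : ℂ) : starW (atZero d a) = atZero d (starRingEnd ℂ a) := by
  apply lp.ext
  funext n
  show starRingEnd ℂ (atZero d a (-n)) = _
  rw [atZero_apply, atZero_apply]
  by_cases h : n = 0 <;> simp [h]

lemma nonlin_atZero (k m : ℕ) (a : ℂ) :
    nonlin k m (atZero d a) = atZero d (((‖a‖ : ℂ) ^ (2 * m)) * a) := by
  unfold nonlin
  induction m with
  | zero => simp
  | succ m ih =>
    rw [Function.iterate_succ_apply', ih, starW_atZero, mulW_atZero, mulW_atZero, Complex.mul_conj']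
    congr 1
    rw [mul_add, pow_add]
    ring

/-- The spatially constant solution. -/
noncomputable def plane (m : ℕ) (c : ℂ) (t : ℝ) : ℂ :=
  c * Complex.exp (((-(‖c‖ ^ (2 * m) * t) : ℝ) : ℂ) * Complex.I)

lemma norm_plane (m : ℕ) (c : ℂ) (t : ℝ) : ‖plane m c t‖ = ‖c‖ := by
  rw [plane, norm_mul, Complex.norm_exp_ofReal_mul_I, mul_one]

lemma hasDerivAt_plane (k m : ℕ) (c : ℂ) (t : ℝ) :
    HasDerivAt (fun s => atZero d (plane m c s)) (field k m t (atZero d (plane m c t))) t := by
  have h1 : HasDerivAt (plane m c)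
      (-Complex.I * ((‖plane m c t‖ : ℂ) ^ (2 * m) * plane m c t)) t := by
    have h := (((hasDerivAt_id t).const_mul (‖c‖ ^ (2 * m))).neg.ofReal_comp.mul_const
      Complex.I).cexp.const_mul c
    refine h.congr_deriv ?_
    rw [norm_plane]
    simp [plane]
    ring
  have h2 := ((lp.singleContinuousLinearMap ℂ (fun _ : Freq d => ℂ) 1 (0 : Freq d)).restrictScalars
    ℝ).hasFDerivAt.comp_hasDerivAt t h1
  refine h2.congr_deriv ?_
  rw [field, rot_atZero, nonlin_atZero, rot_atZero]
  show lp.single 1 (0 : Freq d) _ = _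
  rw [atZero, ← lp.single_smul, smul_eq_mul]

/-- Evaluation at one frequency. -/
noncomputable def evalW (n : Freq d) : Wien d →L[ℝ] ℂ :=
  LinearMap.mkContinuous
    { toFun := fun f => f n
      map_add' := fun f g => rfl
      map_smul' := fun c f => rfl } 1
    (fun f => by
      show ‖f n‖ ≤ 1 * ‖f‖
      rw [one_mul]
      exact lp.norm_apply_le_norm (by norm_num : (1 : ENNReal) ≠ 0) f n)

/-- Global solution of a globally Lipschitz bounded time-dependent equation. -/
lemma exists_global (F : ℝ → Wien d → Wien d) {C T : ℝ} (hT : 0 ≤ T) (hC : 0 ≤ C)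
    (f : Wien d) {K : NNReal} (hlip : ∀ t, LipschitzWith K (F t))
    (hc : ∀ x, Continuous fun t => F t x) (hb : ∀ t x, ‖F t x‖ ≤ C) :
    ∃ v : ℝ → Wien d, v 0 = f ∧ ∀ t ∈ Icc 0 T, HasDerivWithinAt v (F t (v t)) (Icc 0 T) t := by
  have hpl : IsPicardLindelof F (⟨0, left_mem_Icc.2 hT⟩ : Icc (0 : ℝ) T) f
      ⟨C * T, mul_nonneg hC hT⟩ 0 ⟨C, hC⟩ K := by
    refine ⟨fun t _ => (hlip t).lipschitzOnWith, fun x _ => (hc x).continuousOn,
      fun t _ x _ => hb t x, ?_⟩
    show C * max (T - 0) (0 - 0) ≤ C * T - ((0 : NNReal) : ℝ)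
    simp [max_eq_left hT]
  exact hpl.exists_eq_forall_mem_Icc_hasDerivWithinAt₀

/-- Reading a solution in the interaction picture back as coefficients. -/
lemma solves_of_interaction (m k : ℕ) {T : ℝ} {f : Wien d} {v : ℝ → Wien d} (hv0 : v 0 = f)
    (hv : ∀ t ∈ Icc 0 T, HasDerivWithinAt v (field k m t (v t)) (Icc 0 T) t) :
    SolvesUpTo m k T (coef k f) := by
  have hvc : ContinuousOn v (Icc 0 T) := fun t ht => (hv t ht).continuousWithinAt
  have hpair : ContinuousOn (fun t : ℝ => (t, v t)) (Icc 0 T) := continuousOn_id.prodMk hvc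
  have hcont : ContinuousOn (fun t => rot t (v t)) (Icc 0 T) := by
    have := continuous_rot_uncurry.comp_continuousOn hpair
    exact this
  refine ⟨fun t => coef k (rot t (v t)), ?_, fun t _ => ?_, fun t ht ε hε => ?_, fun t ht n => ?_⟩
  · funext n; simp [coef_rot, phase_zero_time, hv0]
  · exact (summable_norm (rot t (v t))).congr fun n => (wt_mul_norm_coef k _ n).symm
  · obtain ⟨η, hη, h⟩ := Metric.continuousOn_iff.1 hcont t ht ε hε
    refine ⟨η, hη, fun s hs hst => ?_⟩
    have e : (fun n => jap n ^ k * ‖coef k (rot s (v s)) n - coef k (rot t (v t)) n‖)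
        = fun n => ‖(rot s (v s) - rot t (v t)) n‖ := by
      funext n; rw [← coef_sub, ← wt_mul_norm_coef k (rot s (v s) - rot t (v t)) n]; rfl
    rw [e]
    refine ⟨summable_norm _, ?_⟩
    rw [← norm_eq, ← dist_eq_norm]
    exact h s hs hst
  · have h1 : HasDerivWithinAt (fun s => v s n) (field k m t (v t) n) (Icc 0 T) t :=
      (evalW n).hasFDerivAt.comp_hasDerivWithinAt t (hv t ht)
    have h2 := ((hasDerivAt_phase t n).hasDerivWithinAt.mul h1).div_const (wt k n : ℂ)
    have h3 : HasDerivWithinAt (fun s => coef k (rot s (v s)) n) _ (Icc 0 T) t := h2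
    refine h3.congr_deriv ?_
    rw [← coef_nonlin]
    have e : field k m t (v t) n = -Complex.I * (phase (-t) n * nonlin k m (rot t (v t)) n) := rfl
    simp only [coef, rot_apply, e]
    linear_combination (-Complex.I * nonlin k m (rot t (v t)) n / (wt k n : ℂ)) * phase_mul_neg t n

theorem solves_near_constant (m k : ℕ) {T M : ℝ} (hT : 0 ≤ T) (hM : 0 ≤ M) :
    ∃ δ > 0, ∀ (c : ℂ) (f : Wien d), ‖c‖ ≤ M → ‖f - atZero d c‖ < δ →
      SolvesUpTo m k T (coef k f) := by
  obtain ⟨C, hC, hCb⟩ := field_bound (d := d) k m (R := M + 1) (by linarith)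
  refine ⟨Real.exp (-(2 * C * T)), Real.exp_pos _, fun c f hc hf => ?_⟩
  have hM1 : 0 < M + 1 := by linarith
  have hlip : ∀ t, LipschitzWith (⟨2 * C, by linarith⟩ : NNReal)
      (fun x : Wien d => field k m t (clip (M + 1) x)) := fun t =>
    LipschitzWith.of_dist_le_mul fun x y => by
      rw [dist_eq_norm, dist_eq_norm]
      refine ((hCb t _ _ (norm_clip_le hM1 x) (norm_clip_le hM1 y)).2).trans ?_
      show C * _ ≤ 2 * C * _
      nlinarith [norm_clip_sub hM1 x y]
  obtain ⟨v, hv0, hv⟩ := exists_global (fun t x => field k m t (clip (M + 1) x)) hT hC f hlip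
    (fun x => by
      have hp : Continuous fun t : ℝ => (t, clip (M + 1) x) := continuous_id.prodMk continuous_const
      have := (continuous_field k m).comp hp
      exact this)
    (fun t x => (hCb t _ _ (norm_clip_le hM1 x) (norm_clip_le hM1 x)).1)
  have hzn : ∀ t, ‖atZero d (plane m c t)‖ ≤ M + 1 := fun t => by
    rw [norm_atZero, norm_plane]; linarith
  have hclose := dist_le_of_trajectories_ODE
    (v := fun t x => field k m t (clip (M + 1) x))
    (f := v) (g := fun t => atZero d (plane m c t)) (δ := ‖f - atZero d c‖) (a := 0) (b := T)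
    hlip (fun t ht => (hv t ht).continuousWithinAt)
    (fun t ht => (hv t (Ico_subset_Icc_self ht)).mono_of_mem_nhdsWithin (Icc_mem_nhdsGE_of_mem ht))
    (fun t _ => (hasDerivAt_plane k m c t).continuousAt.continuousWithinAt)
    (fun t _ => by
      show HasDerivWithinAt _ (field k m t (clip (M + 1) (atZero d (plane m c t)))) _ _
      rw [clip_eq hM1 (hzn t)]
      exact (hasDerivAt_plane k m c t).hasDerivWithinAt)
    (le_of_eq (by simp [hv0, plane, dist_eq_norm]))
  refine solves_of_interaction m k hv0 fun t ht => ?_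
  have h := hclose t ht
  rw [dist_eq_norm] at h
  have h2 : ‖f - atZero d c‖ * Real.exp (2 * C * (t - 0)) ≤ 1 := by
    refine (mul_le_mul hf.le (Real.exp_le_exp.2 ?_) (Real.exp_pos _).le (Real.exp_pos _).le).trans
      (le_of_eq (by rw [← Real.exp_add]; simp : Real.exp (-(2 * C * T)) * Real.exp (2 * C * T) = 1))
    nlinarith [ht.2]
  have hsmall : ‖v t‖ ≤ M + 1 := by
    have := norm_le_norm_add_norm_sub' (v t) (atZero d (plane m c t))
    have hz : ‖atZero d (plane m c t)‖ ≤ M := by rw [norm_atZero, norm_plane]; exact hc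
    change _ ≤ ‖f - atZero d c‖ * Real.exp (2 * C * (t - 0)) at h
    linarith
  have := hv t ht
  rwa [clip_eq hM1 hsmall] at this

end Vale.Agent.P139
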