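import Mathlib
import Vale.Agent.P139.Basic

/-! The Gaussian random datum of the problem. -/

open MeasureTheory ProbabilityTheory

namespace Vale.Agent.P139

/-- The standard complex Gaussian law: independent real and imaginary parts of variance one half. -/
noncomputable def gaussC : Measure ℂ :=
  ((gaussianReal 0 (1 / 2)).prod (gaussianReal 0 (1 / 2))).map Complex.measurableEquivRealProd.symm

/-- The law of a family of independent standard complex Gaussians indexed by the frequencies. -/
noncomputable def noise (d : ℕ) : Measure (Freq d → ℂ) := Measure.infinitePi fun _ => gaussC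

/-- Fourier coefficients `g_n ⟨n⟩^{-α}` of the random datum. -/
noncomputable def datum {d : ℕ} (α : ℝ) (g : Freq d → ℂ) (n : Freq d) : ℂ :=
  ((jap n ^ (-α) : ℝ) : ℂ) * g n

end Vale.Agent.P139
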