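import Mathlib
import Vale.Agent.P139.Flow
import Vale.Agent.P139.Law

/-! The random datum is near a constant with positive, and for large decay with high, probability. -/

open Set MeasureTheory ProbabilityTheory
open scoped ENNReal

namespace Vale.Agent.P139

variable {d : ℕ}

lemma isProb_gaussC : IsProbabilityMeasure gaussC :=
  Measure.isProbabilityMeasure_map Complex.measurableEquivRealProd.symm.measurable.aemeasurable

instance : IsProbabilityMeasure gaussC := isProb_gaussC

instance : IsProbabilityMeasure (noise d) := by unfold noise; infer_instance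

lemma gaussC_ball_pos {η : ℝ} (hη : 0 < η) : 0 < gaussC (Metric.closedBall 0 η) := by
  rw [gaussC, Complex.measurableEquivRealProd.symm.map_apply]
  have hsub : Icc (-(η / 2)) (η / 2) ×ˢ Icc (-(η / 2)) (η / 2) ⊆
      Complex.measurableEquivRealProd.symm ⁻¹' Metric.closedBall 0 η := by
    rintro ⟨x, y⟩ ⟨hx, hy⟩
    show (⟨x, y⟩ : ℂ) ∈ Metric.closedBall (0 : ℂ) η
    rw [mem_closedBall_zero_iff]
    refine (Complex.norm_le_abs_re_add_abs_im _).trans ?_
    show |x| + |y| ≤ η
    have := abs_le.2 hx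
    have := abs_le.2 hy
    linarith
  refine lt_of_lt_of_le ?_ (measure_mono hsub)
  have hI : 0 < gaussianReal 0 (1 / 2) (Icc (-(η / 2)) (η / 2)) := by
    refine pos_iff_ne_zero.2 fun h => ?_
    have := (gaussianReal_absolutelyContinuous' 0 (by norm_num : (1 / 2 : NNReal) ≠ 0)) h
    rw [Real.volume_Icc, ENNReal.ofReal_eq_zero] at this
    linarith
  rw [Measure.prod_prod]
  exact ENNReal.mul_pos hI.ne' hI.ne'

/-- The first absolute moment. -/
noncomputable def moment : ℝ≥0∞ := ∫⁻ z, ‖z‖ₑ ∂gaussC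

lemma moment_lt_top : moment < ⊤ := by
  have h : Integrable (fun z : ℂ => z) gaussC := by
    rw [gaussC, Complex.measurableEquivRealProd.symm.measurableEmbedding.integrable_map_iff]
    have h1 : Integrable (id : ℝ → ℝ) (gaussianReal 0 (1 / 2)) :=
      memLp_one_iff_integrable.1 (memLp_id_gaussianReal' 1 (by norm_num))
    have hx := h1.comp_fst (gaussianReal 0 (1 / 2))
    have hy := h1.comp_snd (gaussianReal 0 (1 / 2))
    refine (hx.ofReal.add (hy.ofReal.mul_const Complex.I)).congr (Filter.Eventually.of_forall ?_)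
    rintro ⟨x, y⟩
    apply Complex.ext <;> simp
  exact h.2

lemma measurable_enorm_eval (n : Freq d) : Measurable fun g : Freq d → ℂ => ‖g n‖ₑ :=
  (measurable_pi_apply n).enorm

lemma lintegral_eval (n : Freq d) : ∫⁻ g, ‖g n‖ₑ ∂noise d = moment := by
  have h := measurePreserving_eval_infinitePi (fun _ : Freq d => gaussC) n
  exact h.lintegral_comp (f := fun z : ℂ => ‖z‖ₑ) (by fun_prop)

lemma summable_bracket (d : ℕ) {b : ℝ} (hb : 1 < b) :
    Summable fun n : Freq d => ∏ i, Real.sqrt (1 + (n i : ℝ) ^ 2) ^ (-b) := by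
  have h1 : Summable fun j : ℤ => Real.sqrt (1 + (j : ℝ) ^ 2) ^ (-b) := by
    refine ((Real.summable_abs_int_rpow hb).add
      (hasSum_ite_eq (0 : ℤ) (1 : ℝ)).summable).of_nonneg_of_le (fun j => by positivity) fun j => ?_
    by_cases hj : j = 0
    · subst hj; simp [Real.zero_rpow (show (-b) ≠ 0 by linarith)]
    · rw [if_neg hj, add_zero]
      refine Real.rpow_le_rpow_of_nonpos (abs_pos.2 (Int.cast_ne_zero.2 hj)) ?_ (by linarith)
      rw [← Real.sqrt_sq_eq_abs]
      exact Real.sqrt_le_sqrt (by linarith)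
  induction d with
  | zero => exact Summable.of_finite
  | succ d ih =>
    refine (Fin.consEquiv fun _ : Fin (d + 1) => ℤ).summable_iff.1 ?_
    refine (h1.mul_of_nonneg ih (fun j => by positivity)
      (fun n => Finset.prod_nonneg fun i _ => by positivity)).congr fun p => ?_
    simp [Fin.consEquiv, Fin.prod_univ_succ]

lemma summable_jap (d : ℕ) {s : ℝ} (hs : (d : ℝ) < s) :
    Summable fun n : Freq d => jap n ^ (-s) := by
  rcases Nat.eq_zero_or_pos d with rfl | hd
  · exact Summable.of_finite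
  have hd' : (0 : ℝ) < d := Nat.cast_pos.2 hd
  have hb : 1 < s / d := (one_lt_div hd').2 hs
  refine (summable_bracket d hb).of_nonneg_of_le
    (fun n => Real.rpow_nonneg (le_trans zero_le_one (one_le_jap n)) _) fun n => ?_
  rw [Real.finsetProd_rpow _ _ fun i _ => Real.sqrt_nonneg _]
  have hj : 0 ≤ jap n := le_trans zero_le_one (one_le_jap n)
  have h2 : jap n ^ (-s) = (jap n ^ d) ^ (-(s / d)) := by
    rw [← Real.rpow_natCast, ← Real.rpow_mul hj]
    congr 1
    field_simp
  rw [h2]
  refine Real.rpow_le_rpow_of_nonpos (Finset.prod_pos fun i _ => by positivity) ?_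
    (by linarith)
  calc ∏ i, Real.sqrt (1 + (n i : ℝ) ^ 2) ≤ ∏ _i : Fin d, jap n := by
        refine Finset.prod_le_prod (fun i _ => Real.sqrt_nonneg _) fun i hi => Real.sqrt_le_sqrt ?_
        have : (n i : ℝ) ^ 2 ≤ sqLen n :=
          Finset.single_le_sum (f := fun i => (n i : ℝ) ^ 2) (fun i _ => sq_nonneg _) hi
        linarith
    _ = _ := by simp

/-- Size of the nonconstant modes in the weighted norm. -/
noncomputable def cst (k : ℕ) (α : ℝ) (n : Freq d) : ℝ :=
  if n = 0 then 0 else jap n ^ ((k : ℝ) - α)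

lemma cst_nonneg (k : ℕ) (α : ℝ) (n : Freq d) : 0 ≤ cst k α n := by
  unfold cst; split
  · rfl
  · exact Real.rpow_nonneg (le_trans zero_le_one (one_le_jap n)) _

lemma summable_cst (k : ℕ) {α : ℝ} (hα : (d : ℝ) + k < α) : Summable (cst (d := d) k α) := by
  refine (summable_jap d (s := α - k) (by linarith)).of_nonneg_of_le (cst_nonneg k α) fun n => ?_
  unfold cst; split
  · exact Real.rpow_nonneg (le_trans zero_le_one (one_le_jap n)) _
  · rw [neg_sub]

lemma cst_le_decay (k : ℕ) {α β : ℝ} (h : β ≤ α) (n : Freq d) :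
    cst k α n ≤ Real.sqrt 2 ^ (-(α - β)) * cst k β n := by
  unfold cst
  by_cases hn : n = 0
  · simp [hn]
  rw [if_neg hn, if_neg hn]
  have hj : Real.sqrt 2 ≤ jap n := by
    apply Real.sqrt_le_sqrt
    obtain ⟨i, hi⟩ := Function.ne_iff.1 hn
    have h1 : (1 : ℝ) ≤ (n i : ℝ) ^ 2 := by
      have : (1 : ℤ) ≤ n i ^ 2 := by
        have := sq_pos_of_ne_zero (show n i ≠ 0 from hi)
        omega
      exact_mod_cast this
    have h2 : (n i : ℝ) ^ 2 ≤ sqLen n :=
      Finset.single_le_sum (f := fun i => (n i : ℝ) ^ 2) (fun i _ => sq_nonneg _) (Finset.mem_univ i)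
    linarith
  have hj0 : 0 < jap n := lt_of_lt_of_le one_pos (one_le_jap n)
  rw [show (k : ℝ) - α = -(α - β) + ((k : ℝ) - β) by ring, Real.rpow_add hj0]
  refine mul_le_mul_of_nonneg_right ?_ (Real.rpow_nonneg hj0.le _)
  exact Real.rpow_le_rpow_of_nonpos (by positivity) hj (by linarith)

/-- The weighted size of the nonconstant part of the datum. -/
noncomputable def tailSize (k : ℕ) (α : ℝ) (g : Freq d → ℂ) : ℝ≥0∞ :=
  ∑' n, ENNReal.ofReal (cst k α n) * ‖g n‖ₑ

lemma measurable_tailSize (k : ℕ) (α : ℝ) : Measurable (tailSize (d := d) k α) := by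
  unfold tailSize
  exact Measurable.ennreal_tsum fun n => (measurable_enorm_eval n).const_mul _

lemma lintegral_tailSize (k : ℕ) (α : ℝ) :
    ∫⁻ g, tailSize k α g ∂noise d = moment * ∑' n : Freq d, ENNReal.ofReal (cst k α n) := by
  unfold tailSize
  rw [lintegral_tsum fun n => ((measurable_enorm_eval n).const_mul _).aemeasurable, ← ENNReal.tsum_mul_left]
  refine tsum_congr fun n => ?_
  rw [lintegral_const_mul _ (measurable_enorm_eval n), lintegral_eval, mul_comm]

/-- Solvability once the datum is close to its constant mode. -/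
theorem solves_of_tail (m k : ℕ) {T M : ℝ} (hT : 0 ≤ T) (hM : 0 ≤ M) :
    ∃ δ > 0, ∀ (α : ℝ) (g : Freq d → ℂ), ‖g 0‖ ≤ M → tailSize k α g < ENNReal.ofReal δ →
      SolvesUpTo m k T (datum α g) := by
  obtain ⟨δ, hδ, h⟩ := solves_near_constant (d := d) m k hT hM
  refine ⟨δ, hδ, fun α g h0 ht => ?_⟩
  have hterm : ∀ n : Freq d, ENNReal.ofReal (cst k α n) * ‖g n‖ₑ
      = ENNReal.ofReal (cst k α n * ‖g n‖) := fun n => by
    rw [ENNReal.ofReal_mul (cst_nonneg k α n), ofReal_norm_eq_enorm]
  rw [tailSize, tsum_congr hterm] at ht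
  have hs : Summable fun n : Freq d => cst k α n * ‖g n‖ := by
    have := ENNReal.summable_toReal (ne_top_of_lt ht)
    refine this.congr fun n => ?_
    exact ENNReal.toReal_ofReal (mul_nonneg (cst_nonneg k α n) (norm_nonneg _))
  have hlt : ∑' n : Freq d, cst k α n * ‖g n‖ < δ := by
    rw [← ENNReal.ofReal_tsum_of_nonneg (fun n => mul_nonneg (cst_nonneg k α n) (norm_nonneg _)) hs]
      at ht
    exact (ENNReal.ofReal_lt_ofReal_iff hδ).1 ht
  have hw : ∀ n : Freq d, wt k n * ‖datum α g n‖
      = cst k α n * ‖g n‖ + if n = 0 then ‖g 0‖ else 0 := by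
    intro n
    have hj : 0 < jap n := lt_of_lt_of_le one_pos (one_le_jap n)
    rw [datum, norm_mul, Complex.norm_real, Real.norm_of_nonneg (Real.rpow_nonneg hj.le _)]
    unfold cst wt
    by_cases hn : n = 0
    · subst hn; simp [jap_zero]
    · rw [if_neg hn, if_neg hn, add_zero, ← mul_assoc, ← Real.rpow_natCast,
        ← Real.rpow_add hj, sub_eq_add_neg]
  have hsum : Summable fun n => wt k n * ‖datum α g n‖ :=
    (hs.add (hasSum_ite_eq (0 : Freq d) ‖g 0‖).summable).congr fun n => (hw n).symm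
  rw [← coef_ofCoef k (datum α g) hsum]
  refine h (g 0) _ h0 ?_
  rw [norm_eq]
  refine lt_of_eq_of_lt (tsum_congr fun n => ?_) hlt
  show ‖(wt k n : ℂ) * datum α g n - atZero d (g 0) n‖ = _
  rw [atZero_apply]
  by_cases hn : n = 0
  · subst hn; simp [cst, datum, wt, jap_zero]
  · rw [if_neg hn, sub_zero, norm_mul, Complex.norm_real,
      Real.norm_of_nonneg (wt_pos k n).le, hw n, if_neg hn, add_zero]

theorem exists_high (m k : ℕ) {T ε : ℝ} (hT : 0 ≤ T) (hε : 0 < ε) :
    ∃ α₀ : ℝ, ∀ α ≥ α₀, ∃ A : Set (Freq d → ℂ), MeasurableSet A ∧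
      1 - ENNReal.ofReal ε ≤ noise d A ∧ ∀ g ∈ A, SolvesUpTo m k T (datum α g) := by
  set μ₁ := moment.toReal with hμ
  have hμ0 : 0 ≤ μ₁ := ENNReal.toReal_nonneg
  have hmom : moment = ENNReal.ofReal μ₁ := (ENNReal.ofReal_toReal moment_lt_top.ne).symm
  set M := 2 * μ₁ / ε + 1 with hMdef
  have hM : 0 < M := by positivity
  obtain ⟨δ, hδ, hsol⟩ := solves_of_tail (d := d) m k hT hM.le
  set β : ℝ := (d : ℝ) + k + 1
  set Sβ := ∑' n : Freq d, cst k β n
  have hsβ : Summable (cst (d := d) k β) := summable_cst k (by simp [β])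
  have hlim : Filter.Tendsto (fun α : ℝ => μ₁ * (Real.sqrt 2 ^ (-(α - β)) * Sβ)) Filter.atTop
      (nhds 0) := by
    have hq : Filter.Tendsto (fun α : ℝ => Real.sqrt 2 ^ (-(α - β))) Filter.atTop (nhds 0) := by
      have h1 : Filter.Tendsto (fun x : ℝ => (Real.sqrt 2)⁻¹ ^ x) Filter.atTop (nhds 0) :=
        tendsto_rpow_atTop_of_base_lt_one _ (by
          have : 0 ≤ (Real.sqrt 2)⁻¹ := by positivity
          linarith) (inv_lt_one_of_one_lt₀ (by
          rw [Real.lt_sqrt zero_le_one]; norm_num))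
      refine (h1.comp (Filter.tendsto_atTop_add_const_right _ (-β) Filter.tendsto_id)).congr
        fun α => ?_
      simp only [Function.comp_apply, id_eq]
      rw [Real.rpow_neg (Real.sqrt_nonneg _), Real.inv_rpow (Real.sqrt_nonneg _), ← sub_eq_add_neg]
    simpa using (hq.mul_const Sβ).const_mul μ₁
  obtain ⟨α₁, hα₁⟩ := Filter.eventually_atTop.1
    ((tendsto_order.1 hlim).2 (δ * (ε / 2)) (by positivity))
  refine ⟨max α₁ β, fun α hα => ?_⟩
  have hα2 : β ≤ α := le_trans (le_max_right _ _) hα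
  refine ⟨{g | ‖g 0‖ ≤ M} ∩ {g | tailSize k α g < ENNReal.ofReal δ},
    (measurableSet_le (by fun_prop) measurable_const).inter
      (measurableSet_lt (measurable_tailSize k α) measurable_const), ?_,
    fun g hg => hsol α g hg.1 hg.2⟩
  have hb1 : noise d {g | ‖g 0‖ ≤ M}ᶜ ≤ ENNReal.ofReal (ε / 2) := by
    refine le_trans (measure_mono (t := {g | ENNReal.ofReal M ≤ ‖g 0‖ₑ}) fun g hg => ?_) ?_
    · simp only [mem_compl_iff, mem_ofPred_eq, not_le] at hg ⊢
      rw [← ofReal_norm_eq_enorm]
      exact ENNReal.ofReal_le_ofReal hg.le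
    · refine (meas_ge_le_lintegral_div (measurable_enorm_eval 0).aemeasurable (by simpa using hM) ENNReal.ofReal_ne_top).trans ?_
      rw [lintegral_eval, hmom, ← ENNReal.ofReal_div_of_pos hM]
      refine ENNReal.ofReal_le_ofReal ((div_le_iff₀ hM).2 ?_)
      rw [hMdef, mul_add, mul_one]
      field_simp
      nlinarith
  have hb2 : noise d {g | tailSize k α g < ENNReal.ofReal δ}ᶜ ≤ ENNReal.ofReal (ε / 2) := by
    refine le_trans (measure_mono (t := {g | ENNReal.ofReal δ ≤ tailSize k α g}) fun g hg => ?_) ?_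
    · simpa using hg
    · refine (meas_ge_le_lintegral_div (measurable_tailSize k α).aemeasurable (by simpa using hδ)
        ENNReal.ofReal_ne_top).trans ?_
      have hsα : Summable (cst (d := d) k α) :=
        (hsβ.mul_left _).of_nonneg_of_le (cst_nonneg k α) (cst_le_decay k hα2)
      rw [lintegral_tailSize, hmom, ← ENNReal.ofReal_tsum_of_nonneg (cst_nonneg k α) hsα,
        ← ENNReal.ofReal_mul hμ0, ← ENNReal.ofReal_div_of_pos hδ]
      refine ENNReal.ofReal_le_ofReal ((div_le_iff₀ hδ).2 ?_)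
      have h1 : ∑' n : Freq d, cst k α n ≤ Real.sqrt 2 ^ (-(α - β)) * Sβ :=
        (hsα.tsum_le_tsum (cst_le_decay k hα2) (hsβ.mul_left _)).trans (le_of_eq tsum_mul_left)
      have h2 := hα₁ α (le_trans (le_max_left _ _) hα)
      linarith [mul_le_mul_of_nonneg_left h1 hμ0]
  refine tsub_le_iff_right.2 ?_
  calc (1 : ℝ≥0∞) = noise d univ := measure_univ.symm
    _ ≤ noise d ({g | ‖g 0‖ ≤ M} ∩ {g | tailSize k α g < ENNReal.ofReal δ}) +
          noise d ({g | ‖g 0‖ ≤ M} ∩ {g | tailSize k α g < ENNReal.ofReal δ})ᶜ :=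
        measure_univ_le_add_compl _
    _ ≤ _ := by
        gcongr
        rw [compl_inter]
        refine (measure_union_le _ _).trans ((add_le_add hb1 hb2).trans (le_of_eq ?_))
        rw [← ENNReal.ofReal_add (by linarith) (by linarith), add_halves]

theorem exists_positive (m k : ℕ) {T α : ℝ} (hT : 0 ≤ T) (hα : (d : ℝ) + k < α) :
    ∃ A : Set (Freq d → ℂ), MeasurableSet A ∧
      0 < noise d A ∧ ∀ g ∈ A, SolvesUpTo m k T (datum α g) := by
  classical
  obtain ⟨δ, hδ, hsol⟩ := solves_of_tail (d := d) m k hT (M := 1) zero_le_one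
  set c : Freq d → ℝ≥0∞ := fun n => ENNReal.ofReal (cst k α n) with hc
  have hctop : ∑' n, c n ≠ ⊤ := by
    rw [hc, ← ENNReal.ofReal_tsum_of_nonneg (cst_nonneg k α) (summable_cst k hα)]
    exact ENNReal.ofReal_ne_top
  have hδ4 : (0 : ℝ≥0∞) < ENNReal.ofReal (δ / 4) := by simpa using hδ
  have hlim : Filter.Tendsto (fun S : Finset (Freq d) => moment * ∑' n : {n // n ∉ S}, c n)
      Filter.atTop (nhds 0) := by
    simpa using ENNReal.Tendsto.const_mul (ENNReal.tendsto_tsum_compl_atTop_zero hctop)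
      (Or.inr moment_lt_top.ne)
  obtain ⟨S₀, hS₀⟩ := Filter.eventually_atTop.1 ((tendsto_order.1 hlim).2 _ hδ4)
  set S := insert (0 : Freq d) S₀
  have hS : moment * ∑' n : {n // n ∉ S}, c n < ENNReal.ofReal (δ / 4) :=
    hS₀ S (Finset.subset_insert _ _)
  set σ := ∑' n : Freq d, cst k α n with hσ
  have hσ0 : 0 ≤ σ := tsum_nonneg (cst_nonneg k α)
  set η := min 1 (δ / 4 / (σ + 1)) with hη
  have hη0 : 0 < η := by positivity
  set E : Set (Freq d → ℂ) := Set.pi ↑S fun _ => Metric.closedBall (0 : ℂ) η with hE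
  have hEm : MeasurableSet E :=
    MeasurableSet.pi S.countable_toSet fun _ _ => measurableSet_closedBall
  have hEpos : 0 < noise d E := by
    rw [hE, noise, Measure.infinitePi_pi _ fun _ _ => measurableSet_closedBall,
      pos_iff_ne_zero, Finset.prod_ne_zero_iff]
    exact fun _ _ => (gaussC_ball_pos hη0).ne'
  set Y : (Freq d → ℂ) → ℝ≥0∞ := fun g => ∑' n : {n // n ∉ S}, c n * ‖g n‖ₑ with hY
  have hYm : Measurable Y := Measurable.ennreal_tsum fun n => (measurable_enorm_eval _).const_mul _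
  have hind : iIndepFun (fun n (g : Freq d → ℂ) => g n) (noise d) :=
    iIndepFun_infinitePi (X := fun _ => id) fun _ => measurable_id
  have hint : ∫⁻ g, E.indicator 1 g * Y g ∂noise d
      = noise d E * (moment * ∑' n : {n // n ∉ S}, c n) := by
    simp only [hY, ← ENNReal.tsum_mul_left]
    rw [lintegral_tsum (f := fun (n : {n // n ∉ S}) (g : Freq d → ℂ) =>
      E.indicator (1 : (Freq d → ℂ) → ℝ≥0∞) g * (c n * ‖g n‖ₑ)) fun n : {n // n ∉ S} => ((measurable_one.indicator hEm).mul
      ((measurable_enorm_eval n.1).const_mul _)).aemeasurable]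
    refine tsum_congr fun n => ?_
    have hI : IndepFun (E.indicator (1 : (Freq d → ℂ) → ℝ≥0∞))
        (fun g : Freq d → ℂ => c n * ‖g n‖ₑ) (noise d) := by
      have h := hind.indepFun_finset S {(n : Freq d)}
        (Finset.disjoint_singleton_right.2 n.2) fun i => measurable_pi_apply i
      have hm : MeasurableSet {x : S → ℂ | ∀ i, x i ∈ Metric.closedBall (0 : ℂ) η} := by
        simp only [setOf_forall]
        exact MeasurableSet.iInter fun i => measurable_pi_apply i measurableSet_closedBall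
      refine (h.comp (φ := {x : S → ℂ | ∀ i, x i ∈ Metric.closedBall (0 : ℂ) η}.indicator
          (1 : (S → ℂ) → ℝ≥0∞))
        (ψ := fun y : ({(n : Freq d)} : Finset (Freq d)) → ℂ => c n * ‖y ⟨n, by simp⟩‖ₑ)
        (measurable_one.indicator hm) (by fun_prop)).congr ?_ Filter.EventuallyEq.rfl
      refine Filter.Eventually.of_forall fun g => ?_
      simp only [Function.comp_apply, Set.indicator_apply, mem_setOf_eq, hE, Set.mem_pi,
        Finset.mem_coe, Subtype.forall, Pi.one_apply]
    rw [lintegral_mul_eq_lintegral_mul_lintegral_of_indepFun'' (measurable_one.indicator hEm).aemeasurable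
      ((measurable_enorm_eval n.1).const_mul _).aemeasurable hI, lintegral_indicator_one hEm,
      lintegral_const_mul _ (measurable_enorm_eval n.1),
      lintegral_eval, mul_comm (c n) moment]
  set B := {g | Y g < ENNReal.ofReal (δ / 2)} with hB
  refine ⟨E ∩ B, hEm.inter (measurableSet_lt hYm measurable_const), ?_, fun g hg => ?_⟩
  · refine pos_iff_ne_zero.2 fun h0 => ?_
    have h1 : ∫⁻ g, E.indicator (fun _ => ENNReal.ofReal (δ / 2)) g ∂noise d
        ≤ ∫⁻ g, E.indicator 1 g * Y g ∂noise d := by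
      refine lintegral_mono_ae ?_
      filter_upwards [compl_mem_ae_iff.2 h0] with g hg
      by_cases hgE : g ∈ E
      · simp only [indicator_of_mem hgE, Pi.one_apply, one_mul]
        exact not_lt.1 fun hlt => hg ⟨hgE, hlt⟩
      · simp [indicator_of_notMem hgE]
    rw [lintegral_indicator_const hEm, hint, mul_comm (ENNReal.ofReal _)] at h1
    have h2 := (ENNReal.mul_lt_mul_iff_right hEpos.ne' (measure_ne_top _ _)).2 hS
    exact absurd (h1.trans_lt h2) (not_lt.2 (by gcongr; linarith))
  · refine hsol α g ?_ ?_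
    · have := hg.1 0 (by simp [S])
      rw [mem_closedBall_zero_iff] at this
      exact this.trans (min_le_left _ _)
    · have hsplit : tailSize k α g = ∑ n ∈ S, c n * ‖g n‖ₑ + Y g := by
        have he : (∑' n : ↥(S : Set (Freq d))ᶜ, c n * ‖g n‖ₑ) = Y g :=
          (Equiv.subtypeEquivRight (p := fun x => x ∈ (S : Set (Freq d))ᶜ) (q := fun x => x ∉ S)
            (fun x => by simp)).tsum_eq (fun n : {x // x ∉ S} => c n * ‖g n‖ₑ)
        rw [← he]
        exact (ENNReal.sum_add_tsum_compl S fun n => c n * ‖g n‖ₑ).symm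
      rw [hsplit]
      have hf : ∑ n ∈ S, c n * ‖g n‖ₑ ≤ ENNReal.ofReal (δ / 4) := by
        calc ∑ n ∈ S, c n * ‖g n‖ₑ ≤ ∑ n ∈ S, ENNReal.ofReal (cst k α n * η) := by
              refine Finset.sum_le_sum fun n hn => ?_
              have := hg.1 n hn
              rw [mem_closedBall_zero_iff] at this
              rw [ENNReal.ofReal_mul (cst_nonneg k α n), ← ofReal_norm_eq_enorm]
              gcongr
          _ = ENNReal.ofReal ((∑ n ∈ S, cst k α n) * η) := by
              rw [Finset.sum_mul, ENNReal.ofReal_sum_of_nonneg fun n _ =>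
                mul_nonneg (cst_nonneg k α n) hη0.le]
          _ ≤ _ := by
              refine ENNReal.ofReal_le_ofReal ?_
              have h1 : ∑ n ∈ S, cst k α n ≤ σ :=
                (summable_cst k hα).sum_le_tsum S fun n _ => cst_nonneg k α n
              have h2 : (σ + 1) * η ≤ δ / 4 := by
                have := (le_div_iff₀ (by linarith : (0 : ℝ) < σ + 1)).1 (min_le_right 1 (δ / 4 / (σ + 1)))
                linarith
              nlinarith
      calc _ < ENNReal.ofReal (δ / 4) + ENNReal.ofReal (δ / 2) :=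
            ENNReal.add_lt_add_of_le_of_lt (ne_top_of_le_ne_top ENNReal.ofReal_ne_top hf) hf hg.2
        _ ≤ _ := by
            rw [← ENNReal.ofReal_add (by linarith) (by linarith)]
            exact ENNReal.ofReal_le_ofReal (by linarith)

end Vale.Agent.P139
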